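import Vale.Agent.P265.H299.Lower
import Vale.Agent.P265.H264.Bound

/-!
# P265: products with `k` spheres, the two characters and the unbounded gap (helper299)
-/

open Set Manifold Topology
open scoped ContDiff

namespace Vale.Agent.P265.H299

open Vale.Agent.P265.AS Vale.Agent.P265.Top

/-- Lower bounds for the twisted Betti numbers of the cover of `M × (S²)ᵏ`: the coefficients of
`2 t (1 + t)² (1 + t²)^(k+1)`. -/
def T : ℕ → ℕ → ℕ
  | 0, 0 => 0
  | 0, 1 => 2
  | 0, 2 => 4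
  | 0, 3 => 4
  | 0, 4 => 4
  | 0, 5 => 2
  | 0, _ => 0
  | k + 1, 0 => T k 0
  | k + 1, 1 => T k 1
  | k + 1, j + 2 => T k (j + 2) + T k j

theorem T_zero (k : ℕ) : T k 0 = 0 := by
  induction k with
  | zero => rfl
  | succ k ih => exact ih

theorem T_two (k : ℕ) : T k 2 = 4 := by
  induction k with
  | zero => rfl
  | succ k ih =>
    change T k 2 + T k 0 = 4
    rw [ih, T_zero]

theorem T_high (k j : ℕ) : T k (2 * k + 6 + j) = 0 := by
  induction k generalizing j with
  | zero =>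
    have : 2 * 0 + 6 + j = j + 6 := by omega
    rw [this]
    rfl
  | succ k ih =>
    have e : 2 * (k + 1) + 6 + j = (2 * k + 6 + j) + 2 := by ring
    rw [e]
    change T k (2 * k + 6 + j + 2) + T k (2 * k + 6 + j) = 0
    rw [ih j, show 2 * k + 6 + j + 2 = 2 * k + 6 + (j + 2) by ring, ih (j + 2)]

theorem sum_T (k : ℕ) : ∑ j ∈ Finset.range (2 * k + 6), T k j = 16 * 2 ^ k := by
  induction k with
  | zero => simp [Finset.sum_range_succ, T]
  | succ k ih =>
    have e : 2 * (k + 1) + 6 = (2 * k + 6) + 2 := by ring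
    rw [e, Finset.sum_range_succ' _ (2 * k + 6 + 1), Finset.sum_range_succ' _ (2 * k + 6)]
    have h1 : ∀ j, T (k + 1) (j + 1 + 1) = T k (j + 2) + T k j := fun j => rfl
    have h2 : ∑ j ∈ Finset.range (2 * k + 6), T (k + 1) (j + 1 + 1) =
        ∑ j ∈ Finset.range (2 * k + 6), T k (j + 2) + ∑ j ∈ Finset.range (2 * k + 6), T k j := by
      rw [← Finset.sum_add_distrib]
      exact Finset.sum_congr rfl fun j _ => h1 j
    have h3 : ∑ j ∈ Finset.range (2 * k + 6), T k (j + 2) + T k 1 + T k 0 =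
        ∑ j ∈ Finset.range (2 * k + 6 + 2), T k j := by
      rw [Finset.sum_range_succ' _ (2 * k + 6 + 1), Finset.sum_range_succ' _ (2 * k + 6)]
    have h4 : ∑ j ∈ Finset.range (2 * k + 6 + 2), T k j =
        ∑ j ∈ Finset.range (2 * k + 6), T k j := by
      rw [Finset.sum_range_succ, Finset.sum_range_succ]
      have a := T_high k 0
      have b := T_high k 1
      rw [add_zero] at a
      rw [a, b, add_zero, add_zero]
    have h5 : T (k + 1) (0 + 1) = T k 1 := rfl
    have h6 : T (k + 1) 0 = T k 0 := rfl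
    rw [h2, h5, h6, pow_succ]
    omega

attribute [local instance] fact7

/-- The data carried along the products: the twisted Betti numbers, and two Betti numbers for the
trivial character. -/
structure BD (k : ℕ) {M N : Type} [MetricSpace M] [MetricSpace N] (C : CycCover M N 6) : Prop where
  tw : ∀ j, (T k j : Cardinal) ≤ hh C.g (3 : ZMod 7) univ ∅ j
  tr0 : (1 : Cardinal) ≤ hh C.g (1 : ZMod 7) univ ∅ 0
  tr2 : ((k + 2 : ℕ) : Cardinal) ≤ hh C.g (1 : ZMod 7) univ ∅ 2

theorem BD.succ {k : ℕ} {M N : Type} [MetricSpace M] [MetricSpace N] [CompactSpace N]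
    {C : CycCover M N 6} (h : BD k C) {S : Type} [MetricSpace S] [CompactSpace S] [Nonempty S]
    (m : SphModel S) : BD (k + 1) (prodCover C S) where
  tw := by
    intro j
    match j with
    | 0 => exact (h.tw 0).trans (hh_prodCover_ge C m _ 0)
    | 1 => exact (h.tw 1).trans (hh_prodCover_ge C m _ 1)
    | j + 2 =>
      refine le_trans ?_ (hh_prodCover_add C m (3 : ZMod 7) (ZMod.natCast_self 7) (by norm_num) j)
      change ((T k (j + 2) + T k j : ℕ) : Cardinal) ≤ _
      rw [Nat.cast_add]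
      exact add_le_add (h.tw (j + 2)) (h.tw j)
  tr0 := h.tr0.trans (hh_prodCover_ge C m _ 0)
  tr2 := by
    refine le_trans ?_ (hh_prodCover_add C m (1 : ZMod 7) (ZMod.natCast_self 7) (by norm_num) 0)
    have e : ((k + 1 + 2 : ℕ) : Cardinal) = ((k + 2 : ℕ) : Cardinal) + 1 := by
      push_cast; ring
    rw [e]
    exact add_le_add h.tr2 h.tr0

theorem six_ne : ((6 : ℕ) : ZMod 7) ≠ 0 := by
  intro h6
  have h7 := (ZMod.natCast_eq_zero_iff 6 7).1 h6
  omega

/-- The trivial character on the cover of `M`. -/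
theorem two_le_trivial : (2 : Cardinal) ≤ hh cover.g (1 : ZMod 7) univ ∅ 2 := by
  have hSig : (Sig : Set (ℂ × ℂ × ℝ)).Nonempty := ⟨_, YY_nonempty.some_mem.1.1.1⟩
  have a0 : (1 : Cardinal) ≤ hh gSi (1 : ZMod 7) Sig ∅ 0 := one_le_hh_zero gSi Sig hSig
  have b0 : (1 : Cardinal) ≤ hh (rot gSi ze) (1 : ZMod 7) (circ Sig) ∅ 0 :=
    a0.trans (hh_circ_ge gSi 1 Sig six_ne ze_six 0)
  have b1 : (1 : Cardinal) ≤ hh (rot gSi ze) (1 : ZMod 7) (circ Sig) ∅ 1 :=
    (a0.trans (self_le_add_left _ _)).trans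
      (hh_circ_add gSi 1 Sig six_ne ze_six (ZMod.natCast_self 7) (by norm_num) 0)
  have c0 : (1 : Cardinal) ≤ hh (rot (rot gSi ze) 1) (1 : ZMod 7) (circ (circ Sig)) ∅ 0 :=
    b0.trans (hh_circ_ge _ 1 _ six_ne (one_pow 6) 0)
  have c2 : (1 : Cardinal) ≤ hh (rot (rot gSi ze) 1) (1 : ZMod 7) (circ (circ Sig)) ∅ 2 :=
    (b1.trans (self_le_add_left _ _)).trans
      (hh_circ_add _ 1 _ six_ne (one_pow 6) (ZMod.natCast_self 7) (by norm_num) 1)
  have d2 := hh_sph_add (rot (rot gSi ze) 1) (1 : ZMod 7) (circ (circ Sig))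
    (ZMod.natCast_self 7) (by norm_num) 0
  have e2 : (2 : Cardinal) ≤ hh gY (1 : ZMod 7) YY ∅ 2 := by
    refine le_trans ?_ d2
    rw [show (2 : Cardinal) = 1 + 1 by norm_num]
    exact add_le_add c2 c0
  exact e2.trans (transfer_cover 1 2)

theorem BD.zero : BD 0 cover where
  tw := by
    obtain ⟨h1, h2, h3, h4, h5⟩ := betti_cover
    intro j
    match j with
    | 0 => simp [T]
    | 1 => simpa [T] using h1
    | 2 => simpa [T] using h2
    | 3 => simpa [T] using h3
    | 4 => simpa [T] using h4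
    | 5 => simpa [T] using h5
    | j + 6 => simp [T]
  tr0 := one_le_hh_zero cover.g univ
      ⟨toN hM coe_hM ⟨YY_nonempty.some, YY_nonempty.some_mem⟩, mem_univ _⟩
  tr2 := by simpa using two_le_trivial

/-- The better of the two characters in each degree. -/
def W (k j : ℕ) : ℕ := if j = 0 then 1 else if j = 2 then max 4 (k + 2) else T k j

theorem sum_W (k : ℕ) : 16 * 2 ^ k + 1 + (k - 2) ≤ ∑ j ∈ Finset.range (2 * k + 6), W k j := by
  have h := sum_T k
  obtain ⟨n, hn⟩ : ∃ n, 2 * k + 6 = n + 3 := ⟨2 * k + 3, by ring⟩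
  rw [hn, Finset.sum_range_succ' _ (n + 2), Finset.sum_range_succ' _ (n + 1),
    Finset.sum_range_succ' _ n] at h ⊢
  have e : ∑ j ∈ Finset.range n, W k (j + 1 + 1 + 1) = ∑ j ∈ Finset.range n, T k (j + 1 + 1 + 1) :=
    Finset.sum_congr rfl fun j _ => by
      unfold W
      rw [if_neg (by omega), if_neg (by omega)]
  have e0 : W k 0 = 1 := rfl
  have e1 : W k (0 + 1) = T k 1 := rfl
  have e2 : W k (0 + 1 + 1) = max 4 (k + 2) := rfl
  have t0 := T_zero k
  have t2 := T_two k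
  have t2' : T k (0 + 1 + 1) = 4 := t2
  have t1' : T k (0 + 1) = T k 1 := rfl
  rw [t2', t1', t0] at h
  rw [e, e0, e1, e2]
  have hm : 4 + (k - 2) ≤ max 4 (k + 2) := by omega
  omega

/-- **Lower bound for the products**: the stable Morse number is at least
`16 · 2ᵏ + 1 + (k - 2)`. -/
theorem lower {k : ℕ} {V : Type} [NormedAddCommGroup V] [NormedSpace ℝ V]
    [FiniteDimensional ℝ V] {M N : Type} [MetricSpace M] [CompactSpace M] [Nonempty M]
    [ChartedSpace V M] [IsManifold 𝓘(ℝ, V) ∞ M] [MetricSpace N] [CompactSpace N]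
    {C : CycCover M N 6} (h : BD k C) :
    ((16 * 2 ^ k + 1 + (k - 2) : ℕ) : ℕ∞) ≤ Loc.StableMorseNumber V M := by
  refine H264.le_stableMorseNumber _ fun l F hF hQ => ?_
  rcases (Loc.Crit (𝓘(ℝ, V).prod 𝓘(ℝ, EuclideanSpace ℝ (Fin l))) F).finite_or_infinite
    with hfin | hinf
  swap
  · rw [hinf.encard_eq]; exact le_top
  obtain ⟨idx, ν, hidx⟩ := morseIneq (V := V) C l F hF (fun _ => hQ) hfin
  have aux : ∀ (j b : ℕ) (ψ : ZMod 7), ψ ^ 6 = 1 → (b : Cardinal) ≤ hh C.g ψ univ ∅ j →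
      (b : ℕ∞) ≤ {x | x ∈ Loc.Crit (𝓘(ℝ, V).prod 𝓘(ℝ, EuclideanSpace ℝ (Fin l))) F ∧
        idx x = j + ν}.encard := by
    intro j b ψ hψ hb
    have h' := Nat.cast_le.1 (hb.trans (hidx ψ hψ j))
    have hf : {x | x ∈ Loc.Crit (𝓘(ℝ, V).prod 𝓘(ℝ, EuclideanSpace ℝ (Fin l))) F ∧
        idx x = j + ν}.Finite := hfin.subset fun x hx => hx.1
    rw [← hf.cast_ncard_eq]
    exact_mod_cast h'
  have key : ∀ j < 2 * k + 6, (fun j => (W k j : ℕ∞)) j ≤
      {x | x ∈ Loc.Crit (𝓘(ℝ, V).prod 𝓘(ℝ, EuclideanSpace ℝ (Fin l))) F ∧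
        idx x = j + ν}.encard := by
    intro j _
    have h3 : (3 : ZMod 7) ^ 6 = 1 := by decide
    by_cases h0 : j = 0
    · subst h0
      exact aux 0 1 1 (one_pow 6) (by exact_mod_cast h.tr0)
    by_cases h2 : j = 2
    · subst h2
      change ((max 4 (k + 2) : ℕ) : ℕ∞) ≤ _
      rcases le_total 4 (k + 2) with hk | hk
      · rw [max_eq_right hk]
        exact aux 2 (k + 2) 1 (one_pow 6) h.tr2
      · rw [max_eq_left hk]
        refine aux 2 4 3 h3 ?_
        have := h.tw 2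
        rwa [T_two] at this
    · have e : W k j = T k j := by
        unfold W
        rw [if_neg h0, if_neg h2]
      change (W k j : ℕ∞) ≤ _
      rw [e]
      exact aux j (T k j) 3 h3 (h.tw j)
  have hs := H264.sum_le_encard _ idx ν (fun j => (W k j : ℕ∞)) (2 * k + 6) key
  refine le_trans ?_ hs
  rw [← Nat.cast_sum]
  exact_mod_cast sum_W k

end Vale.Agent.P265.H299
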