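import Vale.Agent.P265.H423.Cover
import Vale.Agent.P265.H336.MorseIneq

/-!
# P265: products with a sphere, lower bounds (helper299)

Cyclic covers and their equivariant cohomology under products with a space homeomorphic to the
two-sphere, and the resulting lower bounds for stable Morse numbers.
-/

open Set Manifold Topology
open scoped ContDiff

namespace Vale.Agent.P265.H299

open Vale.Agent.P265.AS

/-- `S` is homeomorphic to the unit sphere of `ℝ × ℂ`. -/
structure SphModel (S : Type) [TopologicalSpace S] where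
  e : S → ℝ × ℂ
  f : ℝ × ℂ → S
  cont_e : Continuous e
  mem : ∀ s, (e s).1 ^ 2 + ‖(e s).2‖ ^ 2 = 1
  cont_f : ContinuousOn f {v | v.1 ^ 2 + ‖v.2‖ ^ 2 = 1}
  right : ∀ v : ℝ × ℂ, v.1 ^ 2 + ‖v.2‖ ^ 2 = 1 → e (f v) = v

theorem isCompact_sphere : IsCompact {v : ℝ × ℂ | v.1 ^ 2 + ‖v.2‖ ^ 2 = 1} := by
  refine Metric.isCompact_of_isClosed_isBounded ?_ ?_
  · exact isClosed_eq (by fun_prop) continuous_const
  · refine (Metric.isBounded_closedBall (x := (0 : ℝ × ℂ)) (r := 1)).subset fun v hv => ?_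
    have hv' : v.1 ^ 2 + ‖v.2‖ ^ 2 = 1 := hv
    rw [mem_closedBall_zero_iff]
    refine max_le ?_ ?_
    · rw [Real.norm_eq_abs]
      exact abs_le_of_sq_le_sq (by nlinarith [sq_nonneg ‖v.2‖]) zero_le_one
    · nlinarith [sq_nonneg v.1, norm_nonneg v.2]

/-- The cohomology of `N × S` (the whole space) is at least that of `sph N`. -/
theorem hh_prod_ge {N S : Type} [MetricSpace N] [CompactSpace N] [MetricSpace S] [CompactSpace S]
    (m : SphModel S) (g : N → N) {k : Type} [Field k] (χ : k) (j : ℕ) :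
    hh (Prod.map g id) χ (sph (univ : Set N)) ∅ j ≤
      hh (Prod.map g (id : S → S)) χ univ ∅ j := by
  have hφ : IsMapP (Prod.map g id) (Prod.map g (id : S → S)) (sph (univ : Set N)) ∅ univ ∅
      (fun p : N × (ℝ × ℂ) => (p.1, m.f p.2)) := by
    refine ⟨fun _ _ => trivial, fun _ h => h.elim, fun p _ => rfl, fun ε hε => ?_⟩
    obtain ⟨δ, hδ, H⟩ := Metric.uniformContinuousOn_iff.1
      (isCompact_sphere.uniformContinuousOn_of_continuous m.cont_f) ε hε
    refine ⟨min δ ε, lt_min hδ hε, fun p hp q hq hpq => ?_⟩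
    rw [Prod.dist_eq] at hpq ⊢
    refine max_lt ?_ ?_
    · exact ((le_max_left _ _).trans_lt hpq).trans_le (min_le_right _ _)
    · exact H _ hp.2 _ hq.2 (((le_max_right _ _).trans_lt hpq).trans_le (min_le_left _ _))
  have hψ : IsMapP (Prod.map g (id : S → S)) (Prod.map g id) univ ∅ (sph (univ : Set N)) ∅
      (fun q : N × S => (q.1, m.e q.2)) := by
    refine ⟨fun q _ => ⟨trivial, m.mem q.2⟩, fun _ h => h.elim, fun q _ => rfl, fun ε hε => ?_⟩
    obtain ⟨δ, hδ, H⟩ := Metric.uniformContinuous_iff.1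
      (CompactSpace.uniformContinuous_of_continuous
        (show Continuous (fun q : N × S => (q.1, m.e q.2)) from
          continuous_fst.prodMk (m.cont_e.comp continuous_snd))) ε hε
    exact ⟨δ, hδ, fun p _ q _ hpq => H hpq⟩
  refine hh_le_of_section hφ hψ (empty_subset _) (empty_subset _) (fun p hp => ?_) χ j
  exact Prod.ext rfl (m.right _ hp.2)

/-- The product of a cyclic cover with a space. -/
noncomputable def prodCover {M N : Type} [MetricSpace M] [MetricSpace N] {n : ℕ}
    (C : CycCover M N n) (S : Type) [MetricSpace S] [Nonempty S] : CycCover (M × S) (N × S) n where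
  π := Prod.map C.π id
  g := Prod.map C.g id
  lift := fun q m => (C.lift q.1 m.1, m.2)
  δ := C.δ
  n_pos := C.n_pos
  δ_pos := C.δ_pos
  cont_π := C.cont_π.prodMap continuous_id
  cont_g := C.cont_g.prodMap continuous_id
  surj := C.surj.prodMap Function.surjective_id
  π_g := fun q => Prod.ext (C.π_g q.1) rfl
  iter := fun q => by
    rw [Prod.map_iterate]
    exact Prod.ext (C.iter q.1) (by simp)
  free := fun q i h0 hn h => by
    rw [Prod.map_iterate] at h
    exact C.free q.1 i h0 hn (congrArg Prod.fst h)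
  fiber := fun x y h => by
    obtain ⟨h1, h2⟩ : C.π x.1 = C.π y.1 ∧ x.2 = y.2 := Prod.mk.inj h
    obtain ⟨i, hi, he⟩ := C.fiber x.1 y.1 h1
    refine ⟨i, hi, ?_⟩
    rw [Prod.map_iterate]
    exact Prod.ext he (by simp [h2])
  π_lift := fun q m h => by
    have h1 : dist (C.π q.1) m.1 < C.δ := (le_max_left _ _).trans_lt h
    exact Prod.ext (C.π_lift q.1 m.1 h1) rfl
  lift_self := fun q => Prod.ext (C.lift_self q.1) rfl
  lift_g := fun q m h => by
    have h1 : dist (C.π q.1) m.1 < C.δ := (le_max_left _ _).trans_lt h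
    exact Prod.ext (C.lift_g q.1 m.1 h1) rfl
  cont_lift := by
    refine ContinuousOn.prodMk ?_ (by fun_prop)
    refine C.cont_lift.comp (f := fun q : (N × S) × (M × S) => (q.1.1, q.2.1)) (by fun_prop) ?_
    intro q hq
    have hq' : dist (Prod.map C.π id q.1) q.2 < C.δ := hq
    rw [Prod.dist_eq] at hq'
    exact (le_max_left _ _).trans_lt hq'

theorem hh_prodCover_ge {M N : Type} [MetricSpace M] [MetricSpace N] [CompactSpace N] {n : ℕ}
    (C : CycCover M N n) {S : Type} [MetricSpace S] [CompactSpace S] [Nonempty S]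
    (m : SphModel S) {k : Type} [Field k] (χ : k) (j : ℕ) :
    hh C.g χ univ ∅ j ≤ hh (prodCover C S).g χ univ ∅ j :=
  (hh_sph_ge C.g χ univ j).trans (hh_prod_ge m C.g χ j)

theorem hh_prodCover_add {M N : Type} [MetricSpace M] [MetricSpace N] [CompactSpace N] {n : ℕ}
    (C : CycCover M N n) {S : Type} [MetricSpace S] [CompactSpace S] [Nonempty S]
    (m : SphModel S) {k : Type} [Field k] (χ : k) {q : ℕ} (hq : (q : k) = 0) (hq0 : q ≠ 0)
    (j : ℕ) :
    hh C.g χ univ ∅ (j + 2) + hh C.g χ univ ∅ j ≤ hh (prodCover C S).g χ univ ∅ (j + 2) :=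
  (hh_sph_add C.g χ univ hq hq0 j).trans (hh_prod_ge m C.g χ (j + 2))

end Vale.Agent.P265.H299
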